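import Vale.Agent.P095.All.Defs

/-!
# P095: subgroups of groups with Følner sets have Følner sets
-/

namespace Vale.Agent.P095.All

open Finset

noncomputable section

/-- The number of points of `K` moved out of `K` by `g`. -/
theorem ncard_bdry {G : Type} [Group G] [DecidableEq G] (K : Finset G) (g : G) :
    Set.ncard {x : G | x ∈ K ∧ g * x ∉ K} = #{x ∈ K | g * x ∉ K} := by
  rw [← Set.ncard_coe_finset]
  congr 1
  ext x
  simp

/-- A subgroup of an amenable group is amenable. -/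
theorem isAmenable_subgroup {G : Type} [Group G] (hG : IsAmenable G) (H : Subgroup G) :
    IsAmenable H := by
  classical
  intro S ε hε
  -- sum over `S`: one coset piece is good for all of `S`
  obtain ⟨K, hK, hKS⟩ := hG (S.image Subtype.val) (ε / (S.card + 1)) (by positivity)
  let π : G → Quotient (QuotientGroup.rightRel H) := Quotient.mk _
  have hπ : ∀ (h : H) (x : G), π ((h : G) * x) = π x := fun h x => by
    refine Quotient.sound (QuotientGroup.rightRel_apply.2 ?_)
    simp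
  have hsum : ∑ g ∈ S, (#{x ∈ K | (g : G) * x ∉ K} : ℝ) ≤ ε * K.card := by
    calc ∑ g ∈ S, (#{x ∈ K | (g : G) * x ∉ K} : ℝ) ≤ ∑ _g ∈ S, ε / (S.card + 1) * K.card :=
          Finset.sum_le_sum fun g hg => by
            have := hKS g (Finset.mem_image_of_mem _ hg)
            rwa [ncard_bdry] at this
      _ ≤ ε * K.card := by
        rw [Finset.sum_const, nsmul_eq_mul, ← mul_assoc]
        refine mul_le_mul_of_nonneg_right ?_ (Nat.cast_nonneg _)
        rw [mul_div_assoc', div_le_iff₀ (by positivity)]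
        nlinarith [hε.le]
  -- split along the cosets
  have hpiece : ∀ g : G, #{x ∈ K | g * x ∉ K} =
      ∑ c ∈ K.image π, #{x ∈ {y ∈ K | π y = c} | g * x ∉ K} := fun g => by
    rw [Finset.card_eq_sum_card_fiberwise (f := π) (t := K.image π)
      (fun x hx => Finset.mem_image_of_mem _ (Finset.filter_subset _ _ hx))]
    exact Finset.sum_congr rfl fun c _ => by rw [Finset.filter_comm]
  have hcard : K.card = ∑ c ∈ K.image π, #{y ∈ K | π y = c} :=
    Finset.card_eq_sum_card_fiberwise fun x hx => Finset.mem_image_of_mem _ hx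
  obtain ⟨c, hc, hle⟩ : ∃ c ∈ K.image π,
      ∑ g ∈ S, (#{x ∈ {y ∈ K | π y = c} | (g : G) * x ∉ K} : ℝ) ≤ ε * #{y ∈ K | π y = c} := by
    refine Finset.exists_le_of_sum_le (hK.image π) ?_
    rw [Finset.sum_comm, ← Finset.mul_sum, ← Nat.cast_sum, ← hcard]
    refine le_trans (le_of_eq (Finset.sum_congr rfl fun g _ => ?_)) hsum
    rw [hpiece, Nat.cast_sum]
  obtain ⟨t, htK, rfl⟩ := Finset.mem_image.1 hc
  -- translate the piece into `H`
  set P : Finset G := {y ∈ K | π y = π t}
  have hmem : ∀ y ∈ P, y * t⁻¹ ∈ H := fun y hy => by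
    exact QuotientGroup.rightRel_apply.1 (Quotient.exact (Finset.mem_filter.1 hy).2.symm)
  let e : P ↪ H := ⟨fun y => ⟨y.1 * t⁻¹, hmem y.1 y.2⟩, fun a b h => Subtype.ext
    (mul_right_cancel (congrArg Subtype.val h))⟩
  have he : ∀ y : P, ((e y : H) : G) * t = y := fun y => inv_mul_cancel_right _ _
  refine ⟨P.attach.map e, (Finset.attach_nonempty_iff.2 ⟨t, by simp [P, htK]⟩).map, fun g hg => ?_⟩
  rw [ncard_bdry, Finset.card_map, Finset.card_attach]
  refine le_trans ?_ (le_trans (Finset.single_le_sum (f := fun g : H =>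
    (#{x ∈ P | (g : G) * x ∉ K} : ℝ)) (fun _ _ => Nat.cast_nonneg _) hg) hle)
  refine Nat.cast_le.2 (le_of_eq ?_)
  refine Finset.card_bij (fun z hz => (z : G) * t) ?_ (fun a _ b _ h => Subtype.ext
    (mul_right_cancel h)) ?_
  · intro z hz
    obtain ⟨hz1, hz2⟩ := Finset.mem_filter.1 hz
    obtain ⟨y, -, rfl⟩ := Finset.mem_map.1 hz1
    rw [he]
    refine Finset.mem_filter.2 ⟨y.2, fun h => hz2 ?_⟩
    have hy' : (g : G) * y.1 ∈ P :=
      Finset.mem_filter.2 ⟨h, (hπ g y.1).trans (Finset.mem_filter.1 y.2).2⟩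
    refine Finset.mem_map.2 ⟨⟨(g : G) * y.1, hy'⟩, Finset.mem_attach _ _, Subtype.ext ?_⟩
    show (g : G) * y.1 * t⁻¹ = (g : G) * (y.1 * t⁻¹)
    rw [mul_assoc]
  · intro y hy
    obtain ⟨hy1, hy2⟩ := Finset.mem_filter.1 hy
    refine ⟨e ⟨y, hy1⟩, Finset.mem_filter.2 ⟨Finset.mem_map.2 ⟨⟨y, hy1⟩, Finset.mem_attach _ _,
      rfl⟩, fun h => hy2 ?_⟩, he _⟩
    obtain ⟨z, -, hz⟩ := Finset.mem_map.1 h
    have h2 : (g : G) * y = z.1 := by
      have h3 := congrArg (fun w : H => (w : G) * t) hz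
      simp only [he, Subgroup.coe_mul, mul_assoc] at h3
      exact h3.symm
    rw [h2]
    exact (Finset.mem_filter.1 z.2).1

end

end Vale.Agent.P095.All
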