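import Vale.Agent.P101.Bridge.StatementDefs

/-!
# P095: definitions for algebras without unit
-/

namespace Vale.Agent.P095.All

open Filter Topology
open scoped MultiplierAlgebra ComplexOrder

noncomputable section

variable {A : Type} [NonUnitalCStarAlgebra A]

/-- A linear map all of whose matrix amplifications keep positivity and do not increase norms. -/
def IsCPC {A B : Type} [NonUnitalCStarAlgebra A] [NonUnitalCStarAlgebra B] (L : A →ₗ[ℂ] B) : Prop :=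
  letI : PartialOrder A := CStarAlgebra.spectralOrder A
  letI : StarOrderedRing A := CStarAlgebra.spectralOrderedRing A
  letI : PartialOrder B := CStarAlgebra.spectralOrder B
  letI : StarOrderedRing B := CStarAlgebra.spectralOrderedRing B
  ∀ (n : ℕ) (x : CStarMatrix (Fin n) (Fin n) A),
    ((∃ y : CStarMatrix (Fin n) (Fin n) A, x = star y * y) →
      ∃ y : CStarMatrix (Fin n) (Fin n) B, x.map L = star y * y) ∧ ‖x.map L‖ ≤ ‖x‖

/-- The completely positive approximation property, one of the usual definitions of nuclearity. -/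
def HasCPAP (A : Type) [NonUnitalCStarAlgebra A] : Prop :=
  ∀ (P : Finset A) (ε : ℝ), 0 < ε → ∃ (k : ℕ) (ψ : A →ₗ[ℂ] CStarMatrix (Fin k) (Fin k) ℂ)
    (φ : CStarMatrix (Fin k) (Fin k) ℂ →ₗ[ℂ] A), IsCPC ψ ∧ IsCPC φ ∧ ∀ a ∈ P, ‖φ (ψ a) - a‖ ≤ ε

/-- A bounded sequence almost commuting with every element along `ω`. -/
def IsCentralSeq (ω : Ultrafilter ℕ) (x : ℕ → A) : Prop :=
  (∃ C : ℝ, ∀ n, ‖x n‖ ≤ C) ∧
    ∀ a, Tendsto (fun n => ‖x n * a - a * x n‖) (ω : Filter ℕ) (𝓝 0)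

/-- Two sequences act on `A` alike along `ω`. -/
def ActEq (ω : Ultrafilter ℕ) (x y : ℕ → A) : Prop :=
  ∀ a, Tendsto (fun n => ‖x n * a - y n * a‖) (ω : Filter ℕ) (𝓝 0)

/-- The relations of `Z_{2,3}` in `(A_ω ∩ A') / Ann(A)`: an order zero map of `M₂`, given by the
values `P a b`, and `v` with `v*v + P₀₀ + P₁₁ = 1`, `P₀₀ v = v`. -/
def HasDropRelations (A : Type) [NonUnitalCStarAlgebra A] (ω : Ultrafilter ℕ) : Prop :=
  ∃ (P : Fin 2 → Fin 2 → ℕ → A) (c : Fin 2 → ℕ → A) (v : ℕ → A),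
    (∀ a b, IsCentralSeq ω (P a b)) ∧ (∀ a, IsCentralSeq ω (c a)) ∧ IsCentralSeq ω v ∧
    (∀ a b, ActEq ω (star (P a b)) (P b a)) ∧
    (∀ a b a' b', ActEq ω (P a b * P a' b')
      (if b = a' then (∑ i, P i i) * P a b' else 0)) ∧
    (∀ a, ActEq ω (P a a) (star (c a) * c a)) ∧
    (∀ x, Tendsto (fun n => ‖(star (v n) * v n + (P 0 0 n + P 1 1 n)) * x - x‖)
      (ω : Filter ℕ) (𝓝 0)) ∧
    ActEq ω (P 0 0 * v) v

variable {C D : Type} [NonUnitalCStarAlgebra C] [CStarAlgebra D]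

/-- `C` is generated by the products of commuting copies of `A`, injective, and of the unital
algebra `D`, sitting among the multipliers of `C`. -/
def IsTensorGen (ιA : A →⋆ₙₐ[ℂ] C) (ιD : D →⋆ₐ[ℂ] 𝓜(ℂ, C)) : Prop :=
  Function.Injective ιA ∧ (∀ a d, ιD d * (ιA a : 𝓜(ℂ, C)) = (ιA a : 𝓜(ℂ, C)) * ιD d) ∧
    Dense (Submodule.span ℂ (Set.range fun p : A × D => (ιD p.2).fst (ιA p.1)) : Set C)

variable {G : Type} [Group G]

/-- The extension of `α` to `C`, trivial on `D`. -/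
structure IsExtension (α : G → A ≃⋆ₐ[ℂ] A) (ιA : A →⋆ₙₐ[ℂ] C) (ιD : D →⋆ₐ[ℂ] 𝓜(ℂ, C))
    (γ : G → C ≃⋆ₐ[ℂ] C) : Prop where
  mul : ∀ g h c, γ (g * h) c = γ g (γ h c)
  onA : ∀ g a, γ g (ιA a) = ιA (α g a)
  onD : ∀ g d c, γ g ((ιD d).fst c) = (ιD d).fst (γ g c)

/-- Cocycle conjugacy, with a cocycle of unitary multipliers. -/
def CocycleConjugate (α : G → A ≃⋆ₐ[ℂ] A) (γ : G → C ≃⋆ₐ[ℂ] C) : Prop :=
  ∃ (Φ : A ≃⋆ₐ[ℂ] C) (u : G → 𝓜(ℂ, C)),
    (∀ g, star (u g) * u g = 1 ∧ u g * star (u g) = 1) ∧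
    (∀ g h c, (u (g * h)).fst c = (u g).fst (γ g ((u h).fst (γ g⁻¹ c)))) ∧
    ∀ g a, (Φ (α g a) : 𝓜(ℂ, C)) = u g * (γ g (Φ a) : 𝓜(ℂ, C)) * star (u g)

end

end Vale.Agent.P095.All
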