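import Vale.Agent.P095.All.Defs
import Vale.Agent.P095.Amen.Targets

/-!
# P095: module targets for actions of all amenable groups

`Amen.CompareTarget`, `Amen.WitnessTarget` and `Amen.MixtureTarget` are reused as they stand.
-/

namespace Vale.Agent.P095.All

open Vale.Agent.P101.KR Vale.Agent.P095.Amen

noncomputable section

/-- The guard: a positive contraction, almost fixed in norm, that hides `bad`. The set `E` and the
number `N` depend only on the group and the accuracy, so `bad` may be made small afterwards. -/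
def GuardTarget : Prop :=
  ∀ (G : Type) [Group G] (S : Finset G) (δ : ℝ), 0 < δ → ∃ E : Finset G, 1 ∈ E ∧
    ∀ (F : Type) [CStarAlgebra F] (β : G → F ≃⋆ₐ[ℂ] F), (∀ g h x, β (g * h) x = β g (β h x)) →
      ∀ (bad : F) (τ : ℝ), SqLe 0 bad → 0 < τ → ∃ W : F, SqLe 0 W ∧ SqLe W 1 ∧
        W ∈ Cl ((fun h => β h bad) '' (E : Set G)) ∧
        (∀ g ∈ S, ‖β g W - W‖ ≤ δ) ∧
        SqLe W ((1 / τ) • ∑ h ∈ E, β h bad) ∧
        ∀ r : F, star r * r = bad → ‖r * (1 - W) * star r‖ ≤ τ

/-- Two fixed orthogonal full positive contractions. -/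
def CoinTarget : Prop :=
  ∀ (G : Type) [Group G] [Countable G] (F : Type) [CStarAlgebra F] (β : G → F ≃⋆ₐ[ℂ] F)
    (S : Finset G), Setting β S →
    ∃ a b : F, (∀ g, β g a = a ∧ β g b = b) ∧ SqLe 0 a ∧ SqLe 0 b ∧ SqLe a 1 ∧ SqLe b 1 ∧
      a * b = 0 ∧ FullPos a ∧ FullPos b

/-- Amplified letters of any prescribed class. -/
def LettersTarget : Prop :=
  ∀ (G : Type) [Group G] [Countable G] (F : Type) [CStarAlgebra F] (β : G → F ≃⋆ₐ[ℂ] F)
    (S : Finset G), Setting β S → ∀ α θ : ℝ, 0 < θ → θ ≤ α → α ≤ 1 / 4 →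
    Nonempty (Letters' β α θ)

/-- A fixed full element of square zero. -/
def SquareTarget : Prop :=
  ∀ (G : Type) [Group G] [Countable G] (F : Type) [CStarAlgebra F] (β : G → F ≃⋆ₐ[ℂ] F)
    (S : Finset G), Setting β S →
    ∃ y : F, (∀ g, β g y = y) ∧ y * y = 0 ∧ FullPos (star y * y)

/-- The fixed algebra of a finitely generated amenable group has no characters. -/
def GCoreTarget : Prop :=
  ∀ (G : Type) [Group G] [Countable G] (F : Type) [CStarAlgebra F] (β : G → F ≃⋆ₐ[ℂ] F)
    (S : Finset G), Setting β S → IsEmpty (fixedAll β →⋆ₐ[ℂ] ℂ)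

end

end Vale.Agent.P095.All
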