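import Vale.Agent.P095.All.Amenable
import Vale.Agent.P095.All.Targets
import Vale.Agent.P095.All.FA.Targets
import Vale.Agent.P101.Bridge.StatementBridge

/-!
# P095: equivariant `𝒵`-stability for actions of amenable groups, from the module targets
-/

namespace Vale.Agent.P095.All

open TopologicalSpace Vale.Agent.P101.KR Vale.Agent.P101.Bridge
open scoped MultiplierAlgebra

noncomputable section

/-- The answer from the targets. -/
theorem answer_of (hT : TraceDimFATarget) (hS : FASettingTarget) (hM : FixedMapFATarget)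
    (hA : AbsorbFATarget) (hE : ExistsFATarget) (hG : GCoreTarget)
    (G : Type) [Group G] [Countable G] (hAm : IsAmenable G) (A : Type) [NonUnitalCStarAlgebra A]
    [SeparableSpace A] (hnuc : HasCPAP A) (ω : Ultrafilter ℕ)
    (hω : (ω : Filter ℕ) ≤ Filter.cofinite) (hdrop : HasDropRelations A ω)
    (α : G → A ≃⋆ₐ[ℂ] A) (hα : ∀ g h a, α (g * h) a = α g (α h a))
    (D : Type) [CStarAlgebra D] (hD : IsZ D) :
    (∃ (C : Type) (_ : NonUnitalCStarAlgebra C) (ιA : A →⋆ₙₐ[ℂ] C) (ιD : D →⋆ₐ[ℂ] 𝓜(ℂ, C))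
      (γ : G → C ≃⋆ₐ[ℂ] C), IsTensorGen ιA ιD ∧ IsExtension α ιA ιD γ) ∧
    ∀ (C : Type) [NonUnitalCStarAlgebra C] (ιA : A →⋆ₙₐ[ℂ] C) (ιD : D →⋆ₐ[ℂ] 𝓜(ℂ, C))
      (γ : G → C ≃⋆ₐ[ℂ] C), IsTensorGen ιA ιD → IsExtension α ιA ιD γ → CocycleConjugate α γ := by
  have hJ := isJiangSu_of_isZ hD
  have := hJ.separable
  obtain ⟨hno, β, hind, -, hset⟩ := hS G A ω hω hdrop α hα
  have htd := hT A ω hω hnuc hno
  obtain ⟨ψ, hψ⟩ := hM G A ω hω hdrop α hα β hind (fun H hH => by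
    have : Group.FG H := (Group.fg_iff_subgroup_fg H).2 hH
    obtain ⟨S, hS'⟩ := Group.fg_def.1 this
    exact hG H (FA A ω) _ S (hset H S (isAmenable_subgroup hAm H) hS' htd)) D hJ
  exact ⟨hE G A D ω hω α hα β hind ψ hψ,
    fun C _ ιA ιD γ hTen hext =>
      hA G A C D ω hω hJ α β hind ψ hψ ιA ιD γ hTen hext⟩

end

end Vale.Agent.P095.All
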