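import Vale.Agent.P095.All.Targets
import Vale.Agent.P101.KR.Base

/-!
# P095: orbits of an action, and the setting of the identity automorphism
-/

namespace Vale.Agent.P095.All

open Vale.Agent.P101.KR Vale.Agent.P095.Amen

noncomputable section

variable {G : Type} [Group G] {F : Type} [CStarAlgebra F] {β : G → F ≃⋆ₐ[ℂ] F} {S : Finset G}

theorem act_one (hmul : ∀ g h x, β (g * h) x = β g (β h x)) (x : F) : β 1 x = x :=
  EquivLike.injective (β 1) (by rw [← hmul, one_mul])

/-- The orbit of a set. -/
def orbitAll (β : G → F ≃⋆ₐ[ℂ] F) (W : Set F) : Set F := ⋃ g, β g '' W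

theorem subset_orbitAll (hmul : ∀ g h x, β (g * h) x = β g (β h x)) (W : Set F) :
    W ⊆ orbitAll β W := fun x hx => Set.mem_iUnion.2 ⟨1, x, hx, act_one hmul x⟩

omit [Group G] in
theorem countable_orbitAll [Countable G] {W : Set F} (hW : W.Countable) :
    (orbitAll β W).Countable := Set.countable_iUnion fun _ => hW.image _

theorem image_orbitAll (hmul : ∀ g h x, β (g * h) x = β g (β h x)) (W : Set F) (g : G) :
    β g '' orbitAll β W = orbitAll β W := by
  simp only [orbitAll, Set.image_iUnion, Set.image_image, ← hmul]
  exact (Equiv.mulLeft g).surjective.iUnion_comp fun h => β h '' W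

/-- Copies of the orbit of a countable set. -/
theorem exists_copies_orbit [Countable G] (hS : Setting β S) {W : Set F} (hW : W.Countable) :
    Nonempty (Copies' β (orbitAll β W) ℕ) :=
  hS.copies _ (countable_orbitAll hW) (image_orbitAll hS.mul W)

/-- Copies indexed by a subset. -/
def Copies'.reindexed {s : Set F} {ι ι' : Type} (κ : Copies' β s ι) (f : ι' → ι)
    (hf : Function.Injective f) : Copies' β s ι' where
  hom i := κ.hom (f i)
  comm _ _ h := κ.comm _ _ (hf.ne h)
  equiv i := κ.equiv (f i)

theorem exists_copies_fin [Countable G] (hS : Setting β S) {W : Set F} (hW : W.Countable)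
    (n : ℕ) : Nonempty (Copies' β (orbitAll β W) (Fin n)) :=
  (exists_copies_orbit hS hW).map fun κ => κ.reindexed _ Fin.val_injective

theorem Setting.hasCopies [Countable G] (hS : Setting β S) : HasCopies F := fun s hs m => by
  obtain ⟨κ⟩ := exists_copies_fin hS hs m
  exact ⟨⟨fun i => (κ.hom i).comp (StarSubalgebra.inclusion (Cl_mono (subset_orbitAll hS.mul s))),
    fun i j h a b => κ.comm i j h _ _⟩⟩

/-- Forgetting the action leaves a setting for the identity automorphism. -/
theorem Setting.toId [Countable G] (hS : Setting β S) :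
    Amen.Setting (StarAlgEquiv.refl ℂ F) where
  noChar := hS.noChar
  central := hS.central
  copies s hs _ := by
    obtain ⟨κ⟩ := exists_copies_orbit hS hs
    exact ⟨{
      hom := fun i => (κ.hom i).comp (StarSubalgebra.inclusion (Cl_mono (subset_orbitAll hS.mul s)))
      comm := fun i j h a b => κ.comm i j h _ _
      equiv := fun i x y h => by rw [show x = y from Subtype.ext h]; rfl }⟩
  saturated k I rels C h := by
    obtain ⟨x, hx, -⟩ := hS.saturated k ∅ rels C fun ε hε => by
      obtain ⟨x, hb, hr, -⟩ := h ε hε
      exact ⟨x, hb, hr, by simp⟩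
    exact ⟨x, hx, fun i _ => rfl⟩

end

end Vale.Agent.P095.All
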