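import Vale.Agent.P095.Amen.Defs
import Vale.Agent.P101.Bridge.StatementDefs

/-!
# P095: definitions for actions of all amenable groups
-/

namespace Vale.Agent.P095.All

open Vale.Agent.P101.KR Vale.Agent.P095.Amen

noncomputable section

/-- Følner: a finite set is moved little by finitely many given elements. -/
def IsAmenable (G : Type) [Group G] : Prop :=
  ∀ (S : Finset G) (ε : ℝ), 0 < ε → ∃ K : Finset G, K.Nonempty ∧
    ∀ g ∈ S, (Set.ncard {x : G | x ∈ K ∧ g * x ∉ K} : ℝ) ≤ ε * K.card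

variable {F : Type} [CStarAlgebra F]

/-- A tracial state of a subalgebra. -/
structure IsTrace (B : StarSubalgebra ℂ F) (τ : B →ₗ[ℂ] ℂ) : Prop where
  one : τ 1 = 1
  nonneg : ∀ x, 0 ≤ (τ (star x * x)).re
  real : ∀ x, (τ (star x * x)).im = 0
  bound : ∀ x, ‖τ x‖ ≤ ‖x‖
  comm : ∀ x y, τ (x * y) = τ (y * x)

/-- Everything in `s` commutes with everything in `t` and its adjoint. -/
def CommSets (s t : Set F) : Prop := ∀ x ∈ s, ∀ y ∈ t, Commute x y ∧ Commute x (star y)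

/-- What is small in every trace is small in every state, with witnesses commuting with whatever
commutes with the data. -/
def TraceDim (F : Type) [CStarAlgebra F] : Prop :=
  ∀ θ : ℝ, 0 < θ → ∃ C : ℝ, 0 ≤ C ∧
    ∀ (s : Set F), s.Countable → ∀ (z : Cl s), SqLe 0 (z : F) → SqLe (z : F) 1 →
    ∀ ε : ℝ, 0 ≤ ε → (∀ τ : Cl s →ₗ[ℂ] ℂ, IsTrace (Cl s) τ → (τ z).re ≤ ε) →
    ∀ t : Set F, t.Countable → CommSets s t →
      ∃ q : Set F, q.Countable ∧ s ⊆ q ∧ CommSets q t ∧ PosIn (Cl q) (cut θ (z : F)) ∧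
        ∀ d : Dim (Cl q), d.d (cut θ (z : F)) ≤ C * ε

variable {G : Type}

/-- Commuting copies of the algebra generated by `s`, compatible with the action. -/
structure Copies' (β : G → F ≃⋆ₐ[ℂ] F) (s : Set F) (ι : Type) where
  /-- The copies. -/
  hom : ι → Cl s →⋆ₐ[ℂ] F
  comm : ∀ i j, i ≠ j → ∀ a b, Commute (hom i a) (hom j b)
  equiv : ∀ i g (x y : Cl s), β g x = y → β g (hom i x) = hom i y

/-- Approximate solutions of finitely many relations, some variables almost fixed, give exact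
ones. -/
def Saturated' (β : G → F ≃⋆ₐ[ℂ] F) (S : Finset G) : Prop :=
  ∀ (k : ℕ) (I : Finset (Fin k)) (rels : List (Term k)) (C : ℝ),
    (∀ ε : ℝ, 0 < ε → ∃ x : Fin k → F, (∀ i, ‖x i‖ ≤ C) ∧ (∀ r ∈ rels, ‖r.eval x‖ ≤ ε) ∧
      ∀ i ∈ I, ∀ g ∈ S, ‖β g (x i) - x i‖ ≤ ε) →
    ∃ x : Fin k → F, (∀ r ∈ rels, r.eval x = 0) ∧ ∀ i ∈ I, ∀ g, β g (x i) = x i

/-- What the argument uses of `F_ω(A)` and of an action on it of a finitely generated amenable
group. -/
structure Setting [Group G] (β : G → F ≃⋆ₐ[ℂ] F) (S : Finset G) : Prop where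
  amenable : IsAmenable G
  gen : Subgroup.closure (S : Set G) = ⊤
  mul : ∀ g h x, β (g * h) x = β g (β h x)
  noChar : NoCharacter F
  copies : ∀ s : Set F, s.Countable → (∀ g, β g '' s = s) → Nonempty (Copies' β s ℕ)
  central : HasCentralCopy F
  saturated : Saturated' β S
  traceDim : TraceDim F

/-- The algebra fixed by the action. -/
def fixedAll (β : G → F ≃⋆ₐ[ℂ] F) : StarSubalgebra ℂ F :=
  ⨅ g, StarAlgHom.equalizer (β g).toStarAlgHom (StarAlgHom.id ℂ F)

/-- The letters: source `s` with unit `s'`, mark `m` with unit `e`, and a third one `c`. -/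
structure Letters' (β : G → F ≃⋆ₐ[ℂ] F) (α θ : ℝ) where
  s : F
  s' : F
  m : F
  e : F
  c : F
  fix : ∀ u ∈ ({s, s', m, e, c} : Set F), ∀ g, β g u = u
  pos : ∀ u ∈ ({s, s', m, e, c} : Set F), SqLe 0 u ∧ SqLe u 1
  comm : ∀ u ∈ ({s, s', m, e, c} : Set F), ∀ w ∈ ({s, s', m, e, c} : Set F), Commute u w
  s'_s : s' * s = s
  e_m : e * m = m
  s'_e : s' * e = 0
  s'_c : s' * c = 0
  e_c : e * c = 0
  s_ge : DGe (cut (3 / 4) s) (α - θ)
  s'_le : DLe s' (α + θ)
  m_ge : DGe m (1 / 2 - θ)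
  s_full : FullPos (cut (3 / 4) s)
  m_full : FullPos m
  c_full : FullPos c

end

end Vale.Agent.P095.All
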