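import Vale.Agent.P095.All.FixedDrop
import Vale.Agent.P095.All.FA.Props.DropRelations
import Vale.Agent.P095.All.TraceDim.Acts

/-!
# P095: drop relations fixed by the action, in sequences of `A`

A representative in `Ã` times a sequential approximate unit is a representative in `A`.
-/

namespace Vale.Agent.P095.All

open Filter Topology BoundedContinuousFunction TopologicalSpace Vale.Agent.P101.KR
  Vale.Agent.P101.Bridge Vale.Agent.P095.Equiv Vale.Agent.P095.Amen
open scoped MultiplierAlgebra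

noncomputable section

variable {A : Type} [NonUnitalCStarAlgebra A] {ω : Ultrafilter ℕ}

/-- A separable algebra has a bounded approximate unit along `ω`. -/
theorem exists_seq_unit [SeparableSpace A] (hω : (ω : Filter ℕ) ≤ cofinite) :
    ∃ e : ℕ → A, (∀ n, ‖e n‖ ≤ 1) ∧
      (∀ a, Tendsto (fun n => ‖e n * a - a‖) (ω : Filter ℕ) (𝓝 0)) ∧
      ∀ a, Tendsto (fun n => ‖a * e n - a‖) (ω : Filter ℕ) (𝓝 0) := by
  classical
  let _ : PartialOrder A := CStarAlgebra.spectralOrder A
  have : StarOrderedRing A := CStarAlgebra.spectralOrderedRing A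
  set l := CStarAlgebra.approximateUnit A
  have hl := CStarAlgebra.increasingApproximateUnit A
  have : l.NeBot := hl.neBot
  set a : ℕ → A := denseSeq A
  have hev : ∀ n : ℕ, ∃ e : A, ‖e‖ ≤ 1 ∧
      ∀ i ≤ n, ‖e * a i - a i‖ ≤ 1 / (n + 1 : ℝ) ∧ ‖a i * e - a i‖ ≤ 1 / (n + 1 : ℝ) := by
    intro n
    have hpos : (0 : ℝ) < 1 / (n + 1 : ℝ) := by positivity
    have h : ∀ᶠ e in l, ∀ i ∈ Finset.range (n + 1),
        ‖e * a i - a i‖ ≤ 1 / (n + 1 : ℝ) ∧ ‖a i * e - a i‖ ≤ 1 / (n + 1 : ℝ) := by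
      rw [Finset.eventually_all]
      intro i _
      filter_upwards [(hl.tendsto_mul_right (a i)).eventually (Metric.closedBall_mem_nhds _ hpos),
        (hl.tendsto_mul_left (a i)).eventually (Metric.closedBall_mem_nhds _ hpos)] with e h1 h2
      rw [dist_eq_norm] at h1 h2
      exact ⟨h1, h2⟩
    obtain ⟨e, he, hi⟩ := (hl.eventually_norm.and h).exists
    exact ⟨e, he, fun i hin => hi i (Finset.mem_range.2 (by omega))⟩
  choose e he hei using hev
  have key : ∀ m : A → A → A, (∀ x y, ‖m x y‖ ≤ ‖x‖ * ‖y‖) →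
      (∀ x y z, m x (y - z) = m x y - m x z) →
      (∀ n i, i ≤ n → ‖m (e n) (a i) - a i‖ ≤ 1 / (n + 1 : ℝ)) →
      ∀ x, Tendsto (fun n => ‖m (e n) x - x‖) (ω : Filter ℕ) (𝓝 0) := by
    intro m hm hsub hi x
    refine Metric.tendsto_nhds.2 fun ε hε => ?_
    obtain ⟨i, hix⟩ := (denseRange_denseSeq A).exists_dist_lt x (show 0 < ε / 3 by positivity)
    have hev : ∀ᶠ n in atTop, i ≤ n ∧ 1 / (n + 1 : ℝ) < ε / 3 :=
      (eventually_ge_atTop i).and ((tendsto_one_div_add_atTop_nhds_zero_nat (𝕜 := ℝ)).eventually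
        (gt_mem_nhds (by positivity)))
    rw [← Nat.cofinite_eq_atTop] at hev
    filter_upwards [hω hev] with n hn
    have h3 : ‖m (e n) x - m (e n) (a i)‖ ≤ ε / 3 := by
      rw [← hsub]
      refine (hm _ _).trans ((mul_le_of_le_one_left (norm_nonneg _) (he n)).trans ?_)
      rw [← dist_eq_norm]
      exact hix.le
    rw [dist_zero_right, norm_norm]
    calc ‖m (e n) x - x‖
        = ‖(m (e n) x - m (e n) (a i)) + (m (e n) (a i) - a i) + (a i - x)‖ := by
          congr 1; abel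
      _ ≤ ε / 3 + 1 / (n + 1 : ℝ) + ‖a i - x‖ :=
          norm_add₃_le.trans (by gcongr; exact hi n i hn.1)
      _ < ε := by
          have : ‖a i - x‖ < ε / 3 := by rwa [← dist_eq_norm, dist_comm]
          linarith [hn.2]
  exact ⟨e, he, key (fun x y => x * y) norm_mul_le mul_sub fun n i hi => (hei n i hi).1,
    key (fun x y => y * x) (fun x y => (norm_mul_le y x).trans_eq (mul_comm _ _))
      (fun x y z => sub_mul y z x) fun n i hi => (hei n i hi).2⟩

/-- `x` represents `y`. -/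
def Rep (ω : Ultrafilter ℕ) (x : ℕ → A) (y : FA A ω) : Prop :=
  ∃ (v : ℕ →ᵇ Unitization ℂ A) (z : CentralAlgebra ω (Unitization ℂ A)),
    (∀ n, v n = (x n : Unitization ℂ A)) ∧ cls ω v = (z : AOmega (Unitization ℂ A) ω) ∧
      proj A ω z = y

theorem Rep.mul {x x' : ℕ → A} {y y' : FA A ω} (h : Rep ω x y) (h' : Rep ω x' y') :
    Rep ω (x * x') (y * y') := by
  obtain ⟨v, z, hv, hz, hy⟩ := h
  obtain ⟨v', z', hv', hz', hy'⟩ := h'
  exact ⟨v * v', z * z', fun n => by simp [hv, hv', Unitization.inr_mul],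
    by rw [map_mul, hz, hz']; rfl, by rw [map_mul, hy, hy']⟩

theorem Rep.add {x x' : ℕ → A} {y y' : FA A ω} (h : Rep ω x y) (h' : Rep ω x' y') :
    Rep ω (x + x') (y + y') := by
  obtain ⟨v, z, hv, hz, hy⟩ := h
  obtain ⟨v', z', hv', hz', hy'⟩ := h'
  exact ⟨v + v', z + z', fun n => by simp [hv, hv', Unitization.inr_add],
    by rw [map_add, hz, hz']; rfl, by rw [map_add, hy, hy']⟩

theorem Rep.adjoint {x : ℕ → A} {y : FA A ω} (h : Rep ω x y) : Rep ω (star x) (star y) := by
  obtain ⟨v, z, hv, hz, hy⟩ := h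
  exact ⟨star v, star z, fun n => by simp [hv, Unitization.inr_star],
    by rw [map_star, hz]; rfl, by rw [map_star, hy]⟩

theorem rep_zero : Rep ω (0 : ℕ → A) (0 : FA A ω) :=
  ⟨0, 0, fun n => by simp, by rw [map_zero]; rfl, map_zero _⟩

theorem rep_sum {ι : Type} (s : Finset ι) {x : ι → ℕ → A} {y : ι → FA A ω}
    (h : ∀ i ∈ s, Rep ω (x i) (y i)) : Rep ω (∑ i ∈ s, x i) (∑ i ∈ s, y i) := by
  classical
  induction s using Finset.induction_on with
  | empty => simpa using (rep_zero : Rep ω (0 : ℕ → A) _)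
  | insert i s hi ih =>
    rw [Finset.sum_insert hi, Finset.sum_insert hi]
    exact (h i (Finset.mem_insert_self i s)).add
      (ih fun j hj => h j (Finset.mem_insert_of_mem hj))

theorem Rep.actEq {x x' : ℕ → A} {y : FA A ω} (h : Rep ω x y) (h' : Rep ω x' y) :
    ActEq ω x x' := by
  obtain ⟨v, z, hv, hz, hy⟩ := h
  obtain ⟨v', z', hv', hz', hy'⟩ := h'
  intro a
  have h := proj_eq_iff.1 (hy.trans hy'.symm) a
  rw [← hz, ← hz'] at h
  change cls ω v * cls ω (BoundedContinuousFunction.const ℕ (a : Unitization ℂ A)) =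
    cls ω v' * cls ω (BoundedContinuousFunction.const ℕ (a : Unitization ℂ A)) at h
  rw [← map_mul, ← map_mul, cls_eq_iff] at h
  refine h.congr fun n => ?_
  simp [hv, hv', ← Unitization.inr_mul, ← Unitization.inr_sub, Unitization.norm_inr]

theorem Rep.unit {x : ℕ → A} (h : Rep ω x 1) (a : A) :
    Tendsto (fun n => ‖x n * a - a‖) (ω : Filter ℕ) (𝓝 0) := by
  obtain ⟨v, z, hv, hz, hy⟩ := h
  have h := proj_eq_iff.1 (hy.trans (map_one (proj A ω)).symm) a
  rw [← hz, show ((1 : CentralAlgebra ω (Unitization ℂ A)) : AOmega (Unitization ℂ A) ω) = 1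
    from rfl, one_mul] at h
  change cls ω v * cls ω (BoundedContinuousFunction.const ℕ (a : Unitization ℂ A)) =
    cls ω (BoundedContinuousFunction.const ℕ (a : Unitization ℂ A)) at h
  rw [← map_mul, cls_eq_iff] at h
  refine h.congr fun n => ?_
  simp [hv, ← Unitization.inr_mul, ← Unitization.inr_sub, Unitization.norm_inr]

theorem Rep.central {x : ℕ → A} {y : FA A ω} (h : Rep ω x y) : IsCentralSeq ω x := by
  obtain ⟨v, z, hv, hz, -⟩ := h
  refine ⟨⟨‖v‖, fun n => ?_⟩, fun a => ?_⟩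
  · rw [← Unitization.norm_inr (𝕜 := ℂ) (x n), ← hv]
    exact v.norm_coe_le_norm n
  · have hm : cls ω v ∈ Vale.Agent.P101.KR.central (Unitization ℂ A) ω := hz ▸ z.2
    refine (cls_mem_central.1 hm (a : Unitization ℂ A)).congr fun n => ?_
    rw [hv, ← Unitization.inr_mul, ← Unitization.inr_mul, ← Unitization.inr_sub,
      Unitization.norm_inr, norm_sub_rev]

theorem Rep.act {G : Type} {α : G → A ≃⋆ₐ[ℂ] A} {β : G → FA A ω ≃⋆ₐ[ℂ] FA A ω}
    (hβ : IsInduced A ω α β) (g : G) {x : ℕ → A} {y : FA A ω} (h : Rep ω x y) :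
    Rep ω (fun n => α g (x n)) (β g y) := by
  obtain ⟨v, z, hv, hz, hy⟩ := h
  refine ⟨seqMap (unitEquiv (α g)).toStarAlgHom v,
    ⟨omegaMap ω (unitEquiv (α g)).toStarAlgHom z.1, omegaMap_central ω (unitEquiv (α g)) z⟩,
    fun n => ?_, ?_, ?_⟩
  · rw [seqMap_apply, hv]
    exact Unitization.ext (by simp [unitEquiv_hom]) (by simp [unitEquiv_hom])
  · rw [← omegaMap_cls, hz]
  · rw [← hy]
    exact (hβ.inducedBy g z _ rfl).symm

/-- Every element has a representing sequence in `A`. -/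
theorem exists_rep [SeparableSpace A] (hω : (ω : Filter ℕ) ≤ cofinite) (y : FA A ω) :
    ∃ x : ℕ → A, Rep ω x y := by
  obtain ⟨e, he, hel, her⟩ := exists_seq_unit (A := A) hω
  obtain ⟨z, rfl⟩ := proj_surjective y
  obtain ⟨v, hv⟩ := cls_surjective (z : AOmega (Unitization ℂ A) ω)
  obtain ⟨w, E, hw, hE⟩ := exists_centralSeq_cls (ω := ω) (x := e) ⟨⟨1, he⟩, fun a => by
    refine squeeze_zero (fun n => norm_nonneg _) (fun n => ?_)
      (by simpa using (hel a).add (her a))
    calc ‖e n * a - a * e n‖ = ‖(e n * a - a) - (a * e n - a)‖ := by congr 1; abel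
      _ ≤ _ := norm_sub_le _ _⟩
  have h1 : proj A ω E = 1 := by
    rw [← map_one (proj A ω)]
    refine proj_eq_iff.2 fun a => ?_
    rw [← hE, show ((1 : CentralAlgebra ω (Unitization ℂ A)) : AOmega (Unitization ℂ A) ω) = 1
      from rfl, one_mul]
    show cls ω w * cls ω (BoundedContinuousFunction.const ℕ (a : Unitization ℂ A)) =
      cls ω (BoundedContinuousFunction.const ℕ (a : Unitization ℂ A))
    rw [← map_mul, cls_eq_iff]
    refine (hel a).congr fun n => ?_
    simp [hw, ← Unitization.inr_mul, ← Unitization.inr_sub, Unitization.norm_inr]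
  refine ⟨fun n => (v n * (e n : Unitization ℂ A)).snd, v * w, z * E, fun n => ?_,
    by rw [map_mul, hv, hE]; rfl, by rw [map_mul, h1, mul_one]⟩
  exact Unitization.ext (by simp [hw, Unitization.fst_mul]) (by simp [hw])

/-- The relations of `Z_{2,3}` hold with sequences almost fixed by `α`. -/
theorem hasFixedDropRelations_of [SeparableSpace A] {G : Type} [Group G] [Countable G]
    (hω : (ω : Filter ℕ) ≤ cofinite) {α : G → A ≃⋆ₐ[ℂ] A}
    (hα : ∀ g h a, α (g * h) a = α g (α h a)) {β : G → FA A ω ≃⋆ₐ[ℂ] FA A ω}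
    (hβ : IsInduced A ω α β)
    (hno : ∀ H : Subgroup G, H.FG → IsEmpty (fixedAll (fun h : H => β h) →⋆ₐ[ℂ] ℂ)) :
    HasFixedDropRelations A ω α := by
  classical
  obtain ⟨P, c, v, ⟨fP, fc, fv⟩, hstar, hmul, hpos, hv, hfv⟩ := exists_fixedData_quot
    (p := proj A ω) hω normQuot_proj (unitEquiv_mul hα) hβ.inducedBy hno
  choose P' hP using fun a b => exists_rep hω (P a b)
  choose c' hc using fun a => exists_rep hω (c a)
  obtain ⟨v', hv'⟩ := exists_rep hω v
  refine ⟨P', c', v', ⟨fun a b => (hP a b).central, fun a => (hc a).central, hv'.central⟩,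
    ⟨fun g a b => ?_, fun g a => ?_, fun g => ?_⟩, fun a b => ?_, fun a b a' b' => ?_,
    fun a => ?_, fun x => ?_, ?_⟩
  · exact ((hP a b).act hβ g).actEq (by rw [fP]; exact hP a b)
  · exact ((hc a).act hβ g).actEq (by rw [fc]; exact hc a)
  · exact (hv'.act hβ g).actEq (by rw [fv]; exact hv')
  · exact (hP a b).adjoint.actEq (by rw [hstar]; exact hP b a)
  · refine ((hP a b).mul (hP a' b')).actEq ?_
    rw [hmul]
    split_ifs
    · rw [← Fin.sum_univ_two (f := fun i => P i i)]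
      exact (rep_sum Finset.univ fun i _ => hP i i).mul (hP a b')
    · exact rep_zero
  · exact (hP a a).actEq (by rw [hpos]; exact (hc a).adjoint.mul (hc a))
  · have h := (hv'.adjoint.mul hv').add ((hP 0 0).add (hP 1 1))
    rw [hv] at h
    exact h.unit x
  · exact ((hP 0 0).mul hv').actEq (by rw [hfv]; exact hv')

end

end Vale.Agent.P095.All
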