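import Vale.Agent.P095.All.Assembly
import Vale.Agent.P095.All.FixedSeq

/-!
# P095: the fixed drop relations, from the module targets
-/

namespace Vale.Agent.P095.All

open TopologicalSpace Vale.Agent.P101.KR Vale.Agent.P101.Bridge
open scoped MultiplierAlgebra

noncomputable section

/-- The drop relations pass to sequences almost fixed by the action. -/
theorem fixed_answer_of (hT : TraceDimFATarget) (hS : FASettingTarget) (hG : GCoreTarget)
    (G : Type) [Group G] [Countable G] (hAm : IsAmenable G) (A : Type) [NonUnitalCStarAlgebra A]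
    [SeparableSpace A] (hnuc : HasCPAP A) (ω : Ultrafilter ℕ)
    (hω : (ω : Filter ℕ) ≤ Filter.cofinite) (hdrop : HasDropRelations A ω)
    (α : G → A ≃⋆ₐ[ℂ] A) (hα : ∀ g h a, α (g * h) a = α g (α h a)) :
    HasFixedDropRelations A ω α := by
  obtain ⟨hno, β, hind, -, hset⟩ := hS G A ω hω hdrop α hα
  have htd := hT A ω hω hnuc hno
  refine hasFixedDropRelations_of hω hα hind fun H hH => ?_
  have : Group.FG H := (Group.fg_iff_subgroup_fg H).2 hH
  obtain ⟨S, hS'⟩ := Group.fg_def.1 this
  exact hG H (FA A ω) _ S (hset H S (isAmenable_subgroup hAm H) hS' htd)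

end

end Vale.Agent.P095.All
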