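import Vale.Agent.P095.All.FixedRel
import Vale.Agent.P095.All.FA.Props.Main

/-!
# P095: drop relations in the fixed algebra of the induced action
-/

namespace Vale.Agent.P095.All

open Filter Topology BoundedContinuousFunction TopologicalSpace Vale.Agent.P101.KR
  Vale.Agent.P101.Bridge Vale.Agent.P095.Equiv Vale.Agent.P095.Amen
open scoped MultiplierAlgebra

noncomputable section

variable {F : Type} [CStarAlgebra F]

/-- The elements of drop data are bounded. -/
theorem dropData_bound {P : Fin 2 → Fin 2 → F} {c : Fin 2 → F} {v : F}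
    (hstar : ∀ a b, star (P a b) = P b a)
    (hmul' : ∀ a b, P b a * P a b = (P 0 0 + P 1 1) * P b b)
    (hpos : ∀ a, P a a = star (c a) * c a) (hv : star v * v + (P 0 0 + P 1 1) = 1) :
    (∀ a b, ‖P a b‖ ≤ 2) ∧ (∀ a, ‖c a‖ ≤ 2) ∧ ‖v‖ ≤ 2 := by
  let _ : PartialOrder F := CStarAlgebra.spectralOrder F
  have : StarOrderedRing F := CStarAlgebra.spectralOrderedRing F
  have h0 : ∀ a, 0 ≤ P a a := fun a => by rw [hpos]; exact star_mul_self_nonneg _
  have hv0 : 0 ≤ star v * v := star_mul_self_nonneg v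
  have hd : ∀ a, ‖P a a‖ ≤ 1 := by
    intro a
    refine (CStarAlgebra.norm_le_one_iff_of_nonneg _ (h0 a)).2 ?_
    fin_cases a
    · calc P 0 0 ≤ P 0 0 + (P 1 1 + star v * v) :=
            le_add_of_nonneg_right (add_nonneg (h0 1) hv0)
        _ = 1 := by rw [← hv]; abel
    · calc P 1 1 ≤ P 1 1 + (P 0 0 + star v * v) :=
            le_add_of_nonneg_right (add_nonneg (h0 0) hv0)
        _ = 1 := by rw [← hv]; abel
  have hv1 : ‖star v * v‖ ≤ 1 := (CStarAlgebra.norm_le_one_iff_of_nonneg _ hv0).2 <|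
    calc star v * v ≤ star v * v + (P 0 0 + P 1 1) := le_add_of_nonneg_right (add_nonneg (h0 0) (h0 1))
      _ = 1 := hv
  refine ⟨fun a b => ?_, fun a => ?_, ?_⟩
  · have h : ‖P a b‖ * ‖P a b‖ ≤ 2 * 1 := by
      rw [← CStarRing.norm_star_mul_self, hstar, hmul']
      refine (norm_mul_le _ _).trans (mul_le_mul ?_ (hd b) (norm_nonneg _) zero_le_two)
      exact (norm_add_le _ _).trans ((add_le_add (hd 0) (hd 1)).trans (by norm_num))
    nlinarith [norm_nonneg (P a b)]
  · have h : ‖c a‖ * ‖c a‖ ≤ 1 := by rw [← CStarRing.norm_star_mul_self, ← hpos]; exact hd a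
    nlinarith [norm_nonneg (c a)]
  · have h : ‖v‖ * ‖v‖ ≤ 1 := by rw [← CStarRing.norm_star_mul_self]; exact hv1
    nlinarith [norm_nonneg v]

variable {B : Type} [CStarAlgebra B] {ω : Ultrafilter ℕ} {G : Type}

/-- Drop data fixed by every element, from fixed algebras of finitely generated subgroups. -/
theorem exists_fixedData_quot [Group G] [Countable G] [SeparableSpace B]
    (hω : (ω : Filter ℕ) ≤ cofinite) {p : CentralAlgebra ω B →⋆ₐ[ℂ] F} {b : ℕ → B} {w : ℕ → ℝ}
    (hp : NormQuot p b w) {α : G → B ≃⋆ₐ[ℂ] B} (hα : ∀ g h a, α (g * h) a = α g (α h a))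
    {β : G → F ≃⋆ₐ[ℂ] F} (hβ : InducedBy p α β)
    (hno : ∀ H : Subgroup G, H.FG → IsEmpty (fixedAll (fun h : H => β h) →⋆ₐ[ℂ] ℂ)) :
    ∃ (P : Fin 2 → Fin 2 → F) (c : Fin 2 → F) (v : F),
      ((∀ g a b, β g (P a b) = P a b) ∧ (∀ g a, β g (c a) = c a) ∧ ∀ g, β g v = v) ∧
      (∀ a b, star (P a b) = P b a) ∧
      (∀ a b a' b', P a b * P a' b' = if b = a' then (P 0 0 + P 1 1) * P a b' else 0) ∧
      (∀ a, P a a = star (c a) * c a) ∧ star v * v + (P 0 0 + P 1 1) = 1 ∧ P 0 0 * v = v := by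
  classical
  obtain ⟨enum, henum⟩ := exists_surjective_nat G
  let V : Type := (Fin 2 × Fin 2) ⊕ (Fin 2 ⊕ Unit)
  have hm : ∀ m : ℕ, ∃ x : V → F, (∀ i, ‖x i‖ ≤ 2) ∧
      (∀ j ≤ m, ∀ i, β (enum j) (x i) = x i) ∧
      (∀ a b, star (x (.inl (a, b))) = x (.inl (b, a))) ∧
      (∀ a b a' b', x (.inl (a, b)) * x (.inl (a', b')) =
        if b = a' then (x (.inl (0, 0)) + x (.inl (1, 1))) * x (.inl (a, b')) else 0) ∧
      (∀ a, x (.inl (a, a)) = star (x (.inr (.inl a))) * x (.inr (.inl a))) ∧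
      star (x (.inr (.inr ()))) * x (.inr (.inr ())) + (x (.inl (0, 0)) + x (.inl (1, 1))) = 1 ∧
      x (.inl (0, 0)) * x (.inr (.inr ())) = x (.inr (.inr ())) := by
    intro m
    set T : Finset G := (Finset.range (m + 1)).image enum
    set H := Subgroup.closure (T : Set G)
    have : IsClosed (fixedAll (fun h : H => β h) : Set F) := isClosed_fixedAll _
    obtain ⟨d⟩ := allDrops_of (fixedAll fun h : H => β h)
      (hasCopies_fixedAll (fun h : H => β h) fun s hs => copies'_quot hω hp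
        (α := fun h : H => α h) (fun g h => hα g h) (fun g => hβ (g : G)) hs)
      (hno H ⟨T, rfl⟩) 2 le_rfl
    choose c hc using d.orderZero.pos
    let x : V → F := Sum.elim (fun q => (d.P q.1 q.2 : F))
      (Sum.elim (fun a => (c a : F)) fun _ => (d.v : F))
    have hfix : ∀ j ≤ m, ∀ i, β (enum j) (x i) = x i := fun j hj i => by
      have hmem : enum j ∈ H := Subgroup.subset_closure
        (Finset.mem_image_of_mem enum (Finset.mem_range.2 (by omega)))
      have hx : x i ∈ fixedAll (fun h : H => β h) := by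
        rcases i with ⟨a, b⟩ | (a | u)
        · exact (d.P a b).2
        · exact (c a).2
        · exact d.v.2
      exact mem_fixedAll_iff.1 hx ⟨enum j, hmem⟩
    have hstar : ∀ a b, star (d.P a b : F) = d.P b a := fun a b =>
      congrArg Subtype.val (d.orderZero.star_eq a b)
    have hmul : ∀ a b a' b', (d.P a b : F) * d.P a' b' =
        if b = a' then ((d.P 0 0 : F) + d.P 1 1) * d.P a b' else 0 := fun a b a' b' => by
      have h := congrArg Subtype.val (d.orderZero.mul_eq a b a' b')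
      split_ifs at h ⊢ with hb
      · simpa [diagN, Fin.sum_univ_two] using h
      · exact h
    have hpos : ∀ a, (d.P a a : F) = star (c a : F) * c a := fun a => congrArg Subtype.val (hc a)
    have hv : star (d.v : F) * d.v + ((d.P 0 0 : F) + d.P 1 1) = 1 := by
      have h := congrArg Subtype.val (eq_sub_iff_add_eq.1 d.star_mul_v)
      simpa [diagN, Fin.sum_univ_two] using h
    refine ⟨x, ?_, hfix, hstar, hmul, hpos, hv, congrArg Subtype.val d.fix_v⟩
    obtain ⟨h1, h2, h3⟩ := dropData_bound (P := fun a b => (d.P a b : F))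
      (c := fun a => (c a : F)) hstar
      (fun a b => by simpa using hmul b a a b) hpos hv
    rintro (⟨a, b⟩ | (a | u))
    exacts [h1 a b, h2 a, h3]
  choose x hxC hxfix hxstar hxmul hxpos hxv hxfv using hm
  let J : Type := (Fin 2 × Fin 2) ⊕ ((Fin 2 × Fin 2) × (Fin 2 × Fin 2)) ⊕ Fin 2 ⊕ Bool ⊕ (V × ℕ)
  let Φ : J → (V → F) → F := Sum.elim
    (fun q y => star (y (.inl q)) - y (.inl (q.2, q.1))) <| Sum.elim
    (fun q y => y (.inl q.1) * y (.inl q.2) - if q.1.2 = q.2.1
      then (y (.inl (0, 0)) + y (.inl (1, 1))) * y (.inl (q.1.1, q.2.2)) else algebraMap ℂ F 0)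
    <| Sum.elim
    (fun a y => y (.inl (a, a)) - star (y (.inr (.inl a))) * y (.inr (.inl a))) <| Sum.elim
    (fun e y => bif e then
      star (y (.inr (.inr ()))) * y (.inr (.inr ())) + (y (.inl (0, 0)) + y (.inl (1, 1))) -
        algebraMap ℂ F 1
      else y (.inl (0, 0)) * y (.inr (.inr ())) - y (.inr (.inr ())))
    fun q y => β (enum q.2) (y q.1) - y q.1
  have hΦ : ∀ j, Lifts p (Φ j) := by
    rintro (q | q | a | e | q)
    · exact (Lifts.var _).adj.sub (Lifts.var _)
    · refine ((Lifts.var _).mul (Lifts.var _)).sub ?_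
      split_ifs
      · exact ((Lifts.var _).add (Lifts.var _)).mul (Lifts.var _)
      · exact Lifts.const 0
    · exact (Lifts.var _).sub ((Lifts.var _).adj.mul (Lifts.var _))
    · cases e
      · exact ((Lifts.var _).mul (Lifts.var _)).sub (Lifts.var _)
      · exact (((Lifts.var _).adj.mul (Lifts.var _)).add ((Lifts.var _).add (Lifts.var _))).sub
          (Lifts.const 1)
    · exact ((Lifts.var q.1).act hβ (enum q.2)).sub (Lifts.var _)
  have hzero : ∀ j, ∀ᶠ m in atTop, Φ j (x m) = 0 := by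
    rintro (q | q | a | e | q)
    · exact Eventually.of_forall fun m => sub_eq_zero.2 (hxstar m q.1 q.2)
    · refine Eventually.of_forall fun m => sub_eq_zero.2 ((hxmul m _ _ _ _).trans ?_)
      split_ifs <;> simp
    · exact Eventually.of_forall fun m => sub_eq_zero.2 (hxpos m a)
    · refine Eventually.of_forall fun m => ?_
      cases e
      · exact sub_eq_zero.2 (hxfv m)
      · exact sub_eq_zero.2 ((hxv m).trans (map_one _).symm)
    · filter_upwards [eventually_ge_atTop q.2] with m hm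
      exact sub_eq_zero.2 (hxfix m q.2 hm q.1)
  obtain ⟨θ, hθ⟩ := saturate_quot hω hp (fun _ => (2 : ℝ)) x hxC Φ hΦ (fun _ => 0)
    (fun _ => le_rfl) fun j ε hε => by
      filter_upwards [hzero j] with m hm
      rw [hm, norm_zero, zero_add]
      exact hε.le
  have hθ' : ∀ j, Φ j θ = 0 := fun j => norm_le_zero_iff.1 (hθ j)
  have hfixθ : ∀ g i, β g (θ i) = θ i := fun g i => by
    obtain ⟨k, rfl⟩ := henum g
    exact sub_eq_zero.1 (hθ' (.inr (.inr (.inr (.inr (i, k))))))
  refine ⟨fun a b => θ (.inl (a, b)), fun a => θ (.inr (.inl a)), θ (.inr (.inr ())),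
    ⟨fun g a b => hfixθ g _, fun g a => hfixθ g _, fun g => hfixθ g _⟩,
    fun a b => sub_eq_zero.1 (hθ' (.inl (a, b))), fun a b a' b' => ?_,
    fun a => sub_eq_zero.1 (hθ' (.inr (.inr (.inl a)))), ?_,
    sub_eq_zero.1 (hθ' (.inr (.inr (.inr (.inl false)))))⟩
  · refine (sub_eq_zero.1 (hθ' (.inr (.inl ((a, b), (a', b')))))).trans ?_
    split_ifs <;> simp
  · exact (sub_eq_zero.1 (hθ' (.inr (.inr (.inr (.inl true)))))).trans (map_one _)

end

end Vale.Agent.P095.All
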