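import Vale.Agent.P095.All.NonUnital

/-!
# P095: the drop relations with sequences almost fixed by an action
-/

namespace Vale.Agent.P095.All

open Filter Topology

variable {A : Type} [NonUnitalCStarAlgebra A] {G : Type}

/-- The relations of `HasDropRelations` solved by sequences almost fixed by `α`: the relations of
`Z_{2,3}` in the fixed algebra of `(A_ω ∩ A') / Ann(A)`. -/
def HasFixedDropRelations (A : Type) [NonUnitalCStarAlgebra A] (ω : Ultrafilter ℕ)
    (α : G → A ≃⋆ₐ[ℂ] A) : Prop :=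
  ∃ (P : Fin 2 → Fin 2 → ℕ → A) (c : Fin 2 → ℕ → A) (v : ℕ → A),
    ((∀ a b, IsCentralSeq ω (P a b)) ∧ (∀ a, IsCentralSeq ω (c a)) ∧ IsCentralSeq ω v) ∧
    ((∀ g a b, ActEq ω (fun n => α g (P a b n)) (P a b)) ∧
      (∀ g a, ActEq ω (fun n => α g (c a n)) (c a)) ∧ ∀ g, ActEq ω (fun n => α g (v n)) v) ∧
    (∀ a b, ActEq ω (star (P a b)) (P b a)) ∧
    (∀ a b a' b', ActEq ω (P a b * P a' b')
      (if b = a' then (∑ i, P i i) * P a b' else 0)) ∧
    (∀ a, ActEq ω (P a a) (star (c a) * c a)) ∧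
    (∀ x, Tendsto (fun n => ‖(star (v n) * v n + (P 0 0 n + P 1 1 n)) * x - x‖)
      (ω : Filter ℕ) (𝓝 0)) ∧
    ActEq ω (P 0 0 * v) v

end Vale.Agent.P095.All
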