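import Vale.Agent.P095.All.End.Main
import Vale.Agent.P095.All.Letters.Main
import Vale.Agent.P095.All.Guard.Main
import Vale.Agent.P095.All.Row.MainW
import Vale.Agent.P095.All.Row.MainL
import Vale.Agent.P095.All.Coin.Main
import Vale.Agent.P095.All.Square.Main
import Vale.Agent.P095.All.Square.Guarded
import Vale.Agent.P095.Amen.Compare.Main
import Vale.Agent.P095.Amen.Mixture.Main
import Vale.Agent.P095.Amen.Coin.Scalar

/-!
# P095: the fixed algebra of a finitely generated amenable group has no characters
-/

namespace Vale.Agent.P095.All

open Vale.Agent.P095.Amen

/-- Letters of every prescribed class. -/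
theorem letters_all : LettersTarget :=
  Letters.letters_of (Coin.coin_of witness_of guard_of) compare_of Mixture.mixture_of
    Amen.Coin.ampScalar

/-- Fixed full elements of square zero. -/
theorem square_all : SquareTarget :=
  Square.square_of_guarded compare_of witness_of letters_all (rowL_of guard_of)
    (Square.guarded_of guard_of)

/-- No characters on the fixed algebra. -/
theorem gcore_all : GCoreTarget := gcore_of compare_of rowW_of square_all

end Vale.Agent.P095.All
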